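import Crest.Agent.X212.Nkz76.Main
import Crest.Agent.X212.Kof81.Gx
import Crest.Agent.X212.Gnk23.Asm
import Crest.Agent.X212.Nrm67.Main
import Crest.Agent.X212.Iz83.Main
import Crest.Agent.X212.Dg64.Main
import Crest.Agent.X212.Map77.Wc

/-! # Row 212, WALL-Y0 (helper76): the assembly -/

set_option autoImplicit false
noncomputable section

namespace Crest.Agent.X212.Nkz76
open An An.Job M G75 Ins26 Kof81

variable {κ lam : Type} [Fintype κ] [Fintype lam] [DecidableEq lam] {Lm : LM κ lam}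

theorem wallY (L : KLx Lm)
    (hP : ∀ (Y : Mf 3) [CompactSpace Y.M], Cyf70.P1Stmt Y.I Y.M κ (lam ⊕ lam))
    (hI : AllS Lm fun J => Nk89.IsoY J) : AllS Lm fun J => WH J → Nk89.WallY J :=
  fun S D i Wi r n J hS hJ w => Gnk23.asmY J (Nrm67.nrm J) (Iz83.iz hP le_rfl)
    (L.go S D i Wi r n J hS hJ).gen
    (nk0' (((w.inp hJ).and (Fin37.apj' hJ (Tms63.tmsz hJ) (Lit63.litJ hJ))).mono
      fun _ k => k.2 k.1.1 k.1.2) fun a u v => (w a u v).nk)
    (Dg64.dgL J) Map77.Wc.cmpY (hI S D i Wi r n J hS hJ)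

end Crest.Agent.X212.Nkz76
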