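import Crest.Agent.X212.Nkz76.Stab
import Crest.Agent.X212.Nk89.Gws
import Crest.Agent.X212.Nck90.Xc
import Crest.Agent.X212.Nfo63.Loc
import Crest.Agent.X212.Pat85.Fj

/-! # Row 212, DG-NKD0 (helper76): decay on the long neck at a nondegenerate wall -/

set_option autoImplicit false
set_option linter.unusedSectionVars false
noncomputable section
open scoped Manifold ContDiff Topology
open Set Function Filter

namespace Crest.Agent.X212.Nkz76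
open An An.Pre An.Job M Nd18 Gj67 Sob92 Cyf70 Neck67 Pj41 Bki64
open Cmp73 (NF APJ Fam)
open Nck90 (AllN Rich ASg CW)
open Dec35 (Asol DecU Bl P1In LzIn)

section gen
variable {E : Type} [NormedAddCommGroup E] [NormedSpace ℝ E] [FiniteDimensional ℝ E]
  [MeasurableSpace E] [BorelSpace E]
  {HM : Type} [TopologicalSpace HM] {I : ModelWithCorners ℝ E HM} [I.Boundaryless]
  {Z : Type} [TopologicalSpace Z] [ChartedSpace HM Z] [IsManifold I ∞ Z]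
  [MeasurableSpace Z] [BorelSpace Z] [T2Space Z] [SecondCountableTopology Z]
  {E3 : Type} [NormedAddCommGroup E3] [NormedSpace ℝ E3] [FiniteDimensional ℝ E3]
  [MeasurableSpace E3] [BorelSpace E3]
  {H3 : Type} [TopologicalSpace H3] {I3 : ModelWithCorners ℝ E3 H3} [I3.Boundaryless]
  {Y : Type} [TopologicalSpace Y] [ChartedSpace H3 Y] [IsManifold I3 ∞ Y] [T2Space Y]
  [MeasurableSpace Y] [BorelSpace Y] [SecondCountableTopology Y] [CompactSpace Y]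
  {κ : Type} [Fintype κ] {lam : Type} [Fintype lam] {D : YD I3 Y κ lam} {β β' : YC Y κ lam}
  {N : ND Y lam} {r m : ℕ}

/-- exact isomorphisms preserve closeness, with a constant -/
theorem act_lin (hβ' : D.Adm β') {g : Y → CL β.m.V β'.m.V} {ξ : Circle} (h : Stb D β β' g ξ)
    (k : ℕ) : ∃ A > 0, ∀ (c : Cfg (Y × ℝ) (Option κ) lam r) u ζ O η, 0 ≤ η →
      Cl D.Z c (cy β) u (fun _ => ζ) O k η →
      Cl D.Z c (cy β') (fun x => g x.1 ∘L u x) (fun _ => ξ * ζ) O k (A * η) := by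
  have sg : Sm (IC I3) fun x : Y × ℝ => g x.1 := fun x => h.iso.su x trivial
  obtain ⟨C, hC⟩ := Nk89.cb_inv D.F.toPre sg
  obtain ⟨C', hC'⟩ := Cb_clm adL ⟨C, hC⟩
  obtain ⟨C'', hC''⟩ := Cb_comp (Cb_const (csB β'.m.J ξ)) ⟨C, hC⟩
  refine ⟨max (2 ^ k * |C k| * (2 ^ k * |C' k|)) (2 ^ k * |C'' k|) + 1, by positivity,
    fun c u ζ O η h0 H => ⟨H.op, H.iso.trans (h.iso.mono (subset_univ _)), fun a => ?_, ?_⟩⟩
  · refine (((Lb.of_CB sg (hC.2 k)).comp H.op ((H.A a).comp H.op (Lb.of_CB hC'.1 (hC'.2 k)))).congr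
      H.op fun x hx => ?_).mono (le_trans (le_of_eq ?_)
        (mul_le_mul_of_nonneg_right ((le_max_left _ _).trans (le_add_of_nonneg_right zero_le_one)) h0))
    · refine (dA_comp H.iso (h.iso.mono (subset_univ _)) hx a).trans ?_
      rw [dA, h.par, ContinuousLinearMap.zero_comp, zero_add]
      rfl
    · rw [abs_of_nonneg (by positivity : 0 ≤ 2 ^ k * |η| * |C' k|), abs_of_nonneg h0]; ring
  · refine (((Lb.of_CB hC''.1 (hC''.2 k)).app H.op H.P).congr H.op fun x hx => ?_).mono ?_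
    · refine (dP_comp hβ'.adm.ok.Jsq (h.iso.mono (subset_univ _)) hx ζ ξ).trans ?_
      rw [show dP (cy β) (cy β') (fun x => g x.1) ξ x = 0 from sub_eq_zero.2 (h.Φ x.1), zero_add]
      rfl
    · rw [abs_of_nonneg h0]
      exact mul_le_mul_of_nonneg_right
        ((le_max_right _ _).trans (le_add_of_nonneg_right zero_le_one)) h0

/-- decay of a family near a critical point in the class of `β'` -/
theorem dec_nf {γ e : ℝ} (hβ : D.Adm β) (hβ' : D.Adm β') (hE : D.Eqv β β')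
    (h2 : ∀ T Q, DecU D β' γ e (Bl D N T Q)) {α : Type} {l : Filter α} {q₀ : YW I3 Y →₀ ℝ}
    {F : NF I (fun _ : α => Z) D r m} (hF : F.OK N l q₀) (h1 : ∃ k' K d, ∀ᶠ n in l,
      Asol D β' (N.pt D.nk (F.q n)) γ k' K (F.c n) (Dp (F.K n).p (F.K n).q d))
    (k : ℕ) {B : ℝ} (hB : 0 < B) : ∃ η > 0, ∀ᶠ n in l, ∀ a b, a ≤ b → (∀ s ∈ Icc a b,
      s ∈ Dp (F.K n).p (F.K n).q (η⁻¹ + 1) ∧ (F.K n).Near (F.y n) s β η) → ∃ u ζ, ∀ s ∈ Icc a b,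
      Cl D.Z (F.c n) (cy β) u (fun _ => ζ) (win Y s 1) k
        (B * Real.exp (-e * min (s - a) (b - s))) := by
  have adm := fun n => Nck90.adm_pb (F.K n) (hF.sol n).toAdm
  obtain ⟨g, ξ, s1⟩ := Nck90.stb_of_eqv hF.hD hβ hβ' hE
  obtain ⟨g', s2⟩ := Nck90.stb_div hβ hβ' hβ s1 (Stb.refl hβ)
  obtain ⟨A, pA, hA⟩ := act_lin (r := r) hβ s2 k
  obtain ⟨k', K, L, h3⟩ := h1
  obtain ⟨T, Q, hq⟩ := Nck90.inB_ev hF.cv
  have a0 := abs_nonneg L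
  obtain ⟨η, p, h4⟩ := Dec35.dec_in (h2 T Q) (L := |L| + 1) (ρ := fun _ => r) (c := F.c)
    (J := fun n => Dp (F.K n).p (F.K n).q 1) (k' := k') (K := K) (by linarith)
    ((h3.and hq).mono fun n k => ⟨(adm n).mono (prod_mono_right (Dp_sub one_pos)), _, ⟨_, k.2, rfl⟩,
      k.1.mono fun s hs => ⟨fun x hx => by
        linarith [(hs (a := s - |L|) ⟨by linarith, by linarith⟩).1 x hx, le_abs_self L],
      fun x hx => by
        linarith [(hs (a := s + |L|) ⟨by linarith, by linarith⟩).2 x hx, le_abs_self L]⟩⟩)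
    k _ (div_pos hB pA)
  obtain ⟨η', p', h5⟩ := Nck90.nr_act hβ hβ' s1 p
  refine ⟨η', p', h4.mono fun n hn a b hab h6 => ?_⟩
  obtain ⟨u, ζ, k1⟩ := hn a b hab fun s hs => by
    obtain ⟨j1, j2, u, ζ, j3⟩ := h6 s hs
    exact h5 _ _ _ _ ⟨fun t ht => ⟨fun x hx => by linarith [j1.1 x hx, ht.1],
      fun x hx => by linarith [j1.2 x hx, ht.2]⟩, u, ζ,
      cl_of_cls hβ ((adm n).mono (prod_mono_right j2)) j3⟩
  refine ⟨_, _, fun s hs => (hA _ u ζ _ _ (by positivity) (k1 s hs)).mono (win_op _ _) Subset.rfl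
    le_rfl (le_of_eq ?_)⟩
  rw [← mul_assoc, mul_div_cancel₀ _ pA.ne']

end gen

variable {Wi : Type} {X : Mf 4} {A κ lam : Type} [Fintype A] [Fintype κ] [Fintype lam]
  [DecidableEq lam] {M : Mark X A κ} {W : World M} {L : ML M lam} {Λ : Lns W L}
  {A' h : Type} [Fintype A'] [DecidableEq A'] [Fintype h] {r n : ℕ}
  {J : Job Wi Λ A' h r n} {σ : Cel A'} {a : A'}
  {U Up R : Type} [NormedAddCommGroup U] [NormedSpace ℝ U] [NormedAddCommGroup Up]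
  [NormedSpace ℝ Up] [NormedAddCommGroup R] [NormedSpace ℝ R] {d : Dat J σ a U Up R}
  {q₀ : Wi →₀ ℝ} {δ : ℝ}

/-- a degenerating family, seen from the long neck -/
theorem fam (H : d.OK q₀ δ) {Adm : (Wi →₀ ℝ) → Prop} (hA : APJ J Adm) {α : Type}
    {𝒰 : Ultrafilter α} {q : α → Wi →₀ ℝ} {y : α → J.Obc M.c0} (cv : St.Cv (𝒰 : Filter α) q q₀)
    (sol : ∀ᶠ i in (𝒰 : Filter α), Adm (q i) ∧ Sol σ (q i) (y i)) (dg : Dg 𝒰 y d.y) :
    ∃ (T : Set α) (𝒱 : Ultrafilter T) (ha : Fam.Ac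
      (⟨𝒱, σ, fun j => q j, q₀, fun j => y j, d.y.s⟩ : Fam J T M.c0 (J.cf a)) d.x none),
      map Subtype.val (𝒱 : Filter T) = 𝒰 ∧
      (Fam.nf _ ha).OK (J.xs d.x).N 𝒱 ((J.xs d.x).q q₀) ∧ Rich (Fam.nf _ ha) := by
  classical
  obtain ⟨S, C, hb⟩ := hA
  have hJ := H.ok
  have hx : d.x ∈ cylW (J.cf a) := ⟨H.hd, (d.hb false).1⟩
  have h1 : (J.Θ d.y.s).2 d.x = 1 := H.sol.inf.ge hx.1
  obtain ⟨t, ht, hl⟩ := hJ.lin
  obtain ⟨a', k1, k2⟩ := hJ.inf σ H.mem _ H.sol.ov.1 _ h1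
  have e1 : ∀ᶠ i in (𝒰 : Filter α), J.ν d.x (y i).s = 1 :=
    ((((continuous_apply a').tendsto _).comp dg.s).eventually
      (Ici_mem_nhds (show t < d.y.s a' by rwa [k2]))).mono fun i hi => (hl a' _ k1 _ hi).2 hx.2
  obtain ⟨_, e2⟩ := dg.neck _ hx 1 one_pos
  obtain ⟨T, hT, hT'⟩ := (sol.and (e1.and e2)).exists_mem
  have hr : range (Subtype.val : T → α) ∈ 𝒰 := by rw [Subtype.range_coe]; exact hT
  have hm : map Subtype.val (𝒰.comap Subtype.val_injective hr : Filter T) = 𝒰 :=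
    map_comap_of_mem hr
  obtain ⟨Jc, hJc, hq⟩ := cv
  have s := fun j : T => (hT' j j.2).1.2
  have b := fun j : T => hb σ H.mem _ _ _ (hT' j j.2).1.1 (s j)
  obtain ⟨L, hL⟩ := Nfo63.loc hJ H.mem (fun j : T => ⟨(s j).cell, (s j).inf⟩) (dg.s.comp hm.le)
    H.sol.cell h1 (fun j => (hT' j j.2).2.2.1) (Pat85.dj hJ) (fun j => (hT' j j.2).2.1)
    (q := fun j : T => q j) (T := Jc ∪ q₀.support) fun w hw j => by
      rw [Finset.mem_union, not_or] at hw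
      exact (hJc j w hw.1).trans (Finsupp.notMem_support_iff.1 hw.2)
  exact ⟨T, _, fun j => (hT' j j.2).2.2.1, hm, ⟨(J.xs d.x).Y.dim, J.conn_xs _, (hJ.xs _).1.yd,
    (hJ.xs _).2, fun j => (s j).sol, Nfo63.cv_q _ ⟨Jc, fun j => hJc j, fun w => (hq w).comp hm.le⟩,
    ⟨L, hL.mono fun _ k => k _⟩, S, C, fun j => ⟨(b j).g, (b j).nk _ _ _⟩⟩,
    fun j => ⟨Λ.B_ok _ _, hJ.G_ok H.mem (s j).ov, hJ.tame H.mem (s j).ov,
      Lit63.litJ hJ _ H.mem _ _ _ (s j)⟩⟩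

/-- **NKD0** -/
theorem nkd (H : d.OK q₀ δ) {Adm : (Wi →₀ ℝ) → Prop} (hO : St.IsOp Adm) (h0 : Adm q₀)
    (hA : APJ J Adm) {β' : YC d.Y κ (lam ⊕ lam)} {γ e : ℝ} (hβ' : d.D.Adm β')
    (hE : d.D.Eqv (d.β 0) β') (h1 : AllN (W.Z M.c0).I (W.Z M.c0).M d.D (J.xs d.x).N r n
      fun _ l _ F => Rich F → ∃ k' K L, ∀ᶠ n in l, Asol d.D β' ((J.xs d.x).N.pt d.D.nk (F.q n)) γ
        k' K (F.c n) (Dp (F.K n).p (F.K n).q L))
    (h2 : ∀ T Q, DecU d.D β' γ e (Bl d.D (J.xs d.x).N T Q)) (he : δ < e) : d.NkD q₀ δ := by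
  refine ⟨e, he, fun α 𝒰 q y cv sol dg j B hB => ?_⟩
  obtain ⟨T, 𝒱, ha, hm, hF, hR⟩ := fam H hA cv ((hO _ h0 _ _ _ cv).and sol) dg
  obtain ⟨η, p, k⟩ := dec_nf (crit_adm (crit0 H)) hβ' hE h2 hF (h1 _ _ _ _ hF hR) j hB
  obtain ⟨T₀, k'⟩ := dg.neck d.x ⟨H.hd, (d.hb false).1⟩ η p
  refine ⟨max T₀ (η⁻¹ + 1), ?_⟩
  rw [(H.β false).1, ← hm] at k'
  rw [← hm, eventually_map]
  filter_upwards [k, k'] with i k1 ⟨_, k2⟩
  have z : ‖(0 : U)‖ ≤ B := norm_zero.trans_le hB.le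
  by_cases le : max T₀ (η⁻¹ + 1) ≤ nl ((J.Θ (y i).s).2 d.x) - max T₀ (η⁻¹ + 1)
  · obtain ⟨u, ζ, k3⟩ := k1 _ _ le fun s hs => by
      have f := Nck90.K_fin H.ok (ha i)
      have m1 := le_max_left T₀ (η⁻¹ + 1)
      have m2 := le_max_right T₀ (η⁻¹ + 1)
      refine ⟨⟨fun x hx => ?_, fun x hx => ?_⟩, k2 s ⟨by linarith [hs.1], by linarith [hs.2]⟩⟩
      · obtain rfl := Option.some.inj (f.1.symm.trans hx); linarith [hs.1]
      · obtain rfl := Option.some.inj (f.2.symm.trans hx); linarith [hs.2]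
    exact ⟨ha i, 0, ζ, u, z, k3⟩
  · exact ⟨ha i, 0, 1, 0, z, fun s hs => (le (hs.1.trans hs.2)).elim⟩

variable (J) in
/-- INPUT (35, 69, 70) -/
def WY (x : A) : Prop := ∃ S : (J.xs x).N.CD (J.xs x).D, ∀ i,
  P1In (J.xs x).D (S.β i) (J.xs x).N ∧ LzIn (J.xs x).D (S.β i) (J.xs x).N ∧
    ASg (W.Z M.c0).I (W.Z M.c0).M (J.xs x).D (S.β i) (J.xs x).N r n

theorem wy_cw {x : A} (h : CW J x) : WY J x :=
  let ⟨S, _, k⟩ := h
  ⟨S, fun i => ⟨(k i).1, (k i).2.1, (k i).2.2.2 _⟩⟩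

theorem nk0x (hJ : J.OK) (hA : An.Sml (APJ J)) {x : A} (hW : WY J x) : ∃ δ₀ > 0,
    An.Sml fun Adm => ∀ q₀, Adm q₀ → ∀ δ ∈ Ioc 0 δ₀, ∀ σ a (d : Dat J σ a U Up R), d.x = x →
      d.OK q₀ δ → d.NkD q₀ δ := by
  obtain ⟨S, h⟩ := hW
  have := J.conn_xs x
  choose γ hγ h1 using fun i => (h i).2.2
  choose e e0 h2 using fun i => Dec35.dec_bl (hJ.xs x).1.yd (hJ.xs x).2 (S.crit i) (S.irr i)
    (h i).1 (h i).2.1 (hγ i)
  obtain ⟨e', p, le⟩ := exists_pos_le e0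
  obtain ⟨b, hb, hA⟩ := hA
  refine ⟨e' / 2, half_pos p, b, hb, fun Adm hA' q₀ h0 δ hδ σ a d hx H => ?_⟩
  subst hx
  obtain ⟨i, hE⟩ := S.cov _ (crit0 H)
  exact nkd H (isOp_ball b 0) (hA' _ h0) (hA _ fun _ h => h) (crit_adm (S.crit i)) hE (h1 i) (h2 i)
    (by linarith [hδ.2, le i])

/-- **LEAF NKD0 + STAB0** -/
theorem nk0 (hA : An.Sml (APJ J)) (hW : ∀ x, Nonempty ((J.xs x).N.CD (J.xs x).D) → WY J x) :
    Nk89.Nk0 J := fun hJ x hx =>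
  let ⟨δ₀, p, k⟩ := nk0x hJ hA (hW x hx)
  ⟨δ₀, p, k.mono fun _ k q₀ h0 δ hδ σ a d e H _ _ hF => ⟨k q₀ h0 δ hδ σ a d e H, stab H hF⟩⟩

/-- the same from the inputs of `Nck90.neckS` -/
theorem nk0' (hA : An.Sml (APJ J))
    (hW : ∀ x ∈ J.hw, ¬M.pin x → Nck90.PW (J.xs x) ∨ CW J x) : Nk89.Nk0 J := fun hJ x _ => by
  by_cases h : WY J x
  · obtain ⟨δ₀, p, k⟩ := nk0x (U := Fin 0 → ℝ) (Up := ℝ) (R := Fin 0 → ℝ) hJ hA h
    exact ⟨δ₀, p, k.mono fun _ k q₀ h0 δ hδ σ a d e H _ _ hF => ⟨k q₀ h0 δ hδ σ a d e H, stab H hF⟩⟩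
  refine ⟨1, one_pos, .of fun _ q₀ _ δ _ σ a d e H _ _ hF => ?_⟩
  subst e
  exact ((hW _ ⟨a, H.hd⟩ (d.hb false).1).elim (fun k => hF (ND.CD.zr_fix fun z _ =>
    (k.bs _ (crit0 H)).1.zr z.1)) fun k => h (wy_cw k)).elim

end Crest.Agent.X212.Nkz76
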