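import Crest.Agent.X212.Dg64.Defs
import Crest.Agent.X212.One97.Stab
import Crest.Agent.X212.Eqv71.Job

/-! # Row 212, DG-STAB0 (helper76): the stabiliser at a wall whose limit is not fixed -/

set_option autoImplicit false
set_option linter.unusedSectionVars false
noncomputable section
open scoped Manifold ContDiff Topology
open Set Function Filter

namespace Crest.Agent.X212.Nkz76
open An An.Job M Nd18 Gj67
open Bki64 (Stb)

variable {Wi : Type} {X : Mf 4} {A κ lam : Type} [Fintype A] [Fintype κ] [Fintype lam]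
  [DecidableEq lam] {M : Mark X A κ} {W : World M} {L : ML M lam} {Λ : Lns W L}
  {A' h : Type} [Fintype A'] [DecidableEq A'] [Fintype h] {r n : ℕ}
  {J : Job Wi Λ A' h r n} {σ : Cel A'} {a : A'}
  {U Up R : Type} [NormedAddCommGroup U] [NormedSpace ℝ U] [NormedAddCommGroup Up]
  [NormedSpace ℝ Up] [NormedAddCommGroup R] [NormedSpace ℝ R] {d : Dat J σ a U Up R}
  {q₀ : Wi →₀ ℝ} {δ : ℝ}

theorem crit0 (H : d.OK q₀ δ) : (J.xs d.x).N.Crit d.D (d.β 0) := H.crit.self_of_nhds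

/-- **STAB0** -/
theorem stab [Subsingleton U] (H : d.OK q₀ δ) (hF : ¬d.D.Fx (d.β 0)) : d.Stab := by
  refine ⟨1, one_pos, fun u _ γ ξ hγ => ?_⟩
  obtain rfl := Subsingleton.elim u 0
  have c := crit0 H
  have := J.conn_xs d.x
  have k : ∀ b, ∃ ε : ℝ, (ξ : ℂ) = ε ∧ ∀ y, γ b y = ε • d.pZ y := fun b =>
    (One97.stab_on (H.ok.xs d.x).1.yd.B isOpen_univ isPreconnected_univ
      (Tmp64.admOn_univ.2 c.sol.toAdm) hF (hγ b).iso (fun x _ e => (hγ b).par e x)
      fun x _ => ((hγ b).Φ x.1).symm).imp fun _ k => ⟨k.1, fun y => k.2 (y, 0) trivial⟩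
  obtain ⟨ε, e, k0⟩ := k false
  have e1 : ε * ε = 1 := by
    have := Circle.norm_coe ξ
    rw [e, Complex.norm_real, Real.norm_eq_abs] at this
    rw [← abs_mul_abs_self, this, one_mul]
  have e2 : ξ * ξ = 1 :=
    Circle.ext (by rw [Circle.coe_mul, e, ← Complex.ofReal_mul, e1]; rfl)
  have s := H.sol.sol
  refine ⟨rfl, d.y.x.m.p, γ false, ξ, e2 ▸ ⟨Eqv71.ceq_refl (Λ.B_ok _ _) (H.ok.G_ok H.mem H.sol.ov)
    ⟨s.ok, s.conn, s.sm, s.pos⟩ isOpen_univ, fun i => Cnt93.eqv_refl s.ok _⟩,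
    .of_forall fun u' => Subsingleton.elim 0 u' ▸ hγ false, fun b η hη => ?_⟩
  obtain ⟨ε', e', k1⟩ := k b
  obtain rfl : ε' = ε := by exact_mod_cast e'.symm.trans e
  have pp : pm b * pm b = 1 := by cases b <;> simp [pm]
  filter_upwards [eventually_gt_atTop d.R0] with t ht y
  have l : d.y.x.m.p ((d.KS b).ψ (y, -pm b * t)) = d.pZ y :=
    H.lp b y _ (pm b) (by rwa [← mul_assoc, neg_mul_neg, pp, one_mul]) pp.ge
  have i : d.pZ y ∘L d.pZ y = d.pZ y := c.sol.ok.pidem (y, 0)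
  rw [l, k0, k1, ContinuousLinearMap.smul_comp, ContinuousLinearMap.comp_smul, smul_smul, e1,
    one_smul, i, sub_self, norm_zero]
  exact hη.le

end Crest.Agent.X212.Nkz76
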